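import Mathlib.Algebra.Field.Defs

/-! Namespaces. -/

namespace Vale.Agent.P216.Ch2.AS
end Vale.Agent.P216.Ch2.AS

namespace Vale.Agent.P216.Ch2.H388
end Vale.Agent.P216.Ch2.H388

namespace Vale.Agent.P216.Ch2.H456
end Vale.Agent.P216.Ch2.H456

namespace Vale.Agent.P216.Ch2.H550
end Vale.Agent.P216.Ch2.H550

namespace Vale.Agent.P216.Ch2.H754B
end Vale.Agent.P216.Ch2.H754B

namespace Vale.Agent.P216.Ch2.H83
end Vale.Agent.P216.Ch2.H83

namespace Vale.Agent.P216.Ch2.H894
end Vale.Agent.P216.Ch2.H894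

namespace Vale.Agent.P216.Ch2.H901
end Vale.Agent.P216.Ch2.H901

namespace Vale.Agent.P216.Ch2.H923B
end Vale.Agent.P216.Ch2.H923B

namespace Vale.Agent.P216.Ch2.H962
end Vale.Agent.P216.Ch2.H962

namespace Vale.Agent.P216.Ch2.MR
end Vale.Agent.P216.Ch2.MR

namespace Vale.Agent.P216.Ch2.MV337
end Vale.Agent.P216.Ch2.MV337

namespace Vale.Agent.P216.AS
end Vale.Agent.P216.AS

namespace Vale.Agent.P216.H388
end Vale.Agent.P216.H388

namespace Vale.Agent.P216.MV337
end Vale.Agent.P216.MV337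

namespace Vale.Agent.P216.Ch2

/-- No condition on the field. -/
def Ok (k : Type) [Field k] : Prop := k = k

theorem ok (k : Type) [Field k] : Ok k := rfl

end Vale.Agent.P216.Ch2
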