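import Vale.Agent.P216.Ch2.Ns

/-! Namespaces. -/

namespace Vale.Agent.P216.Ch2.AS
end Vale.Agent.P216.Ch2.AS

namespace Vale.Agent.P216.AS
end Vale.Agent.P216.AS

namespace Vale.Agent.P216.Ch2.C313
end Vale.Agent.P216.Ch2.C313

namespace Vale.Agent.P216.C313
end Vale.Agent.P216.C313

namespace Vale.Agent.P216.Ch2.D246
end Vale.Agent.P216.Ch2.D246

namespace Vale.Agent.P216.D246
end Vale.Agent.P216.D246

namespace Vale.Agent.P216.Ch2.D907
end Vale.Agent.P216.Ch2.D907

namespace Vale.Agent.P216.D907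
end Vale.Agent.P216.D907

namespace Vale.Agent.P216.Ch2.H133C
end Vale.Agent.P216.Ch2.H133C

namespace Vale.Agent.P216.H133C
end Vale.Agent.P216.H133C

namespace Vale.Agent.P216.Ch2.H388
end Vale.Agent.P216.Ch2.H388

namespace Vale.Agent.P216.H388
end Vale.Agent.P216.H388

namespace Vale.Agent.P216.Ch2.H456
end Vale.Agent.P216.Ch2.H456

namespace Vale.Agent.P216.H456
end Vale.Agent.P216.H456

namespace Vale.Agent.P216.Ch2.H456C
end Vale.Agent.P216.Ch2.H456C

namespace Vale.Agent.P216.H456C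
end Vale.Agent.P216.H456C

namespace Vale.Agent.P216.Ch2.H456D
end Vale.Agent.P216.Ch2.H456D

namespace Vale.Agent.P216.H456D
end Vale.Agent.P216.H456D

namespace Vale.Agent.P216.Ch2.H550
end Vale.Agent.P216.Ch2.H550

namespace Vale.Agent.P216.H550
end Vale.Agent.P216.H550

namespace Vale.Agent.P216.Ch2.H670.Top0
end Vale.Agent.P216.Ch2.H670.Top0

namespace Vale.Agent.P216.H670.Top0
end Vale.Agent.P216.H670.Top0

namespace Vale.Agent.P216.Ch2.H754B
end Vale.Agent.P216.Ch2.H754B

namespace Vale.Agent.P216.H754B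
end Vale.Agent.P216.H754B

namespace Vale.Agent.P216.Ch2.H83
end Vale.Agent.P216.Ch2.H83

namespace Vale.Agent.P216.H83
end Vale.Agent.P216.H83

namespace Vale.Agent.P216.Ch2.H894
end Vale.Agent.P216.Ch2.H894

namespace Vale.Agent.P216.H894
end Vale.Agent.P216.H894

namespace Vale.Agent.P216.Ch2.H901
end Vale.Agent.P216.Ch2.H901

namespace Vale.Agent.P216.H901
end Vale.Agent.P216.H901

namespace Vale.Agent.P216.Ch2.H923B
end Vale.Agent.P216.Ch2.H923B

namespace Vale.Agent.P216.H923B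
end Vale.Agent.P216.H923B

namespace Vale.Agent.P216.Ch2.H962
end Vale.Agent.P216.Ch2.H962

namespace Vale.Agent.P216.H962
end Vale.Agent.P216.H962

namespace Vale.Agent.P216.Ch2.MR
end Vale.Agent.P216.Ch2.MR

namespace Vale.Agent.P216.MR
end Vale.Agent.P216.MR

namespace Vale.Agent.P216.Ch2.MV337
end Vale.Agent.P216.Ch2.MV337

namespace Vale.Agent.P216.MV337
end Vale.Agent.P216.MV337

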