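import Vale.Agent.P216.Ch2.XOut2b
import Vale.Agent.P216.H828C.Contract2

/-!
# The contract `H828C.XOut2` for the `3`-sphere
-/

open Set Topology BoundedContinuousFunction

namespace Vale.Agent.P216.Ch2

open Vale.Agent.P216.B64 Vale.Agent.P216.AS Vale.Agent.P216.GM

theorem kk_three (i : ℕ) : kk 3 i = i + 1 := by simp [kk]

section

variable {M : Type} [MetricSpace M] {B : ℝ} {k : Type} [Field k] (X : XOut M 3 B k)

theorem g_ne_of_eq {q q' : ℕ} (h : q = q') {t : ℝ} (hne : X.g q t ≠ 0) : X.g q' t ≠ 0 := by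
  subst h
  exact hne

theorem g_ne_mono {q : ℕ} {s t : ℝ} (h : s ≤ t) (hne : X.g q s ≠ 0) : X.g q t ≠ 0 := by
  intro h0
  apply hne
  rw [← X.res_g q s t h, h0, map_zero]

/-- **The contract.** -/
noncomputable def xOut2Of (hB : 0 < B)
    (hxy : ∀ i t, 0 ≤ t → X.g (kk 3 i * (3 - 1)) t ≠ 0 → X.g (kk 3 i * (3 - 1) + 1) (t + B) ≠ 0)
    (hyx : ∀ i t, 0 ≤ t → X.g (kk 3 i * (3 - 1) + 1) t ≠ 0 → X.g (kk 3 i * (3 - 1)) (t + B) ≠ 0) :
    H828C.XOut2 M (3 * B) k where
  g := X.g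
  res_g := X.res_g
  span q t ht h z := by
    have h1 : XL M t ⊆ XL M (t + B) := XL_mono (by linarith)
    have h2 : XL M (t + B) ⊆ XL M (t + 3 * B) := XL_mono (by linarith)
    obtain ⟨c, hc⟩ := X.span q t ht h1 (hres k h2 q z)
    refine ⟨c, ?_⟩
    rw [← hc]
    exact (res_res h2 h1 z).symm
  g_one t := by
    refine X.g_zero 1 t ?_
    rintro (h | ⟨i, h | h⟩)
    · omega
    · rw [kk_three] at h
      omega
    · rw [kk_three] at h
      omega
  birth_x0 t ht := by
    have h := X.birth0 t (by linarith)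
    exact g_ne_of_eq X (by rw [kk_three]) h
  birth_x i t ht h := by
    have h1 := g_ne_of_eq X (q' := kk 3 i * (3 - 1)) (by rw [kk_three]; ring) h
    have h2 := X.birth i t ht h1
    exact g_ne_mono X (by linarith) (g_ne_of_eq X (by rw [kk_three]; ring) h2)
  birth_y0 t ht := by
    have h := X.birth0 B le_rfl
    have h1 := hxy 0 B hB.le h
    exact g_ne_mono X (by linarith) (g_ne_of_eq X (by rw [kk_three]) h1)
  birth_y i t ht h := by
    have h1 := g_ne_of_eq X (q' := kk 3 i * (3 - 1) + 1) (by rw [kk_three]; ring) h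
    have h2 := hyx i t ht h1
    have h3 := X.birth i (t + B) (by linarith) h2
    have h4 := hxy (i + 1) (t + B + B) (by linarith) h3
    exact g_ne_mono X (by linarith) (g_ne_of_eq X (by rw [kk_three]; ring) h4)

end

/-- **The stable cohomology of the free loops of the `3`-sphere in characteristic `2`.** -/
theorem exists_xOut2 (M : Type) [MetricSpace M] [CompactSpace M] {ρ : ℝ} (hρ : 0 < ρ)
    (hU : LS.UniqSeg M ρ)
    (he : Nonempty (M ≃ₜ Metric.sphere (0 : EuclideanSpace ℝ (Fin (3 + 1))) 1)) :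
    ∃ B : ℝ, 0 < B ∧ ∀ (k : Type) [Field k], (2 : k) = 0 → Nonempty (H828C.XOut2 M B k) := by
  obtain ⟨B, hB, h⟩ := xGoal2 3 le_rfl (by norm_num) M ρ hρ hU he
  refine ⟨3 * B, by linarith, fun k _ hk => ?_⟩
  obtain ⟨X, hxy, hyx⟩ := h k hk
  exact ⟨xOut2Of X hB hxy hyx⟩

end Vale.Agent.P216.Ch2
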