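import Vale.Agent.P216.Ch2.ToC2
import Vale.Agent.P216.S376.Skel

/-!
# `S376.XGoal2`: the block [BFB2] of Theorem C of P216
-/

namespace Vale.Agent.P216.Ch2

/-- **[BFB2]** -/
theorem s376_xGoal2 : S376.XGoal2 := by
  intro M _ _ ρ hρ hU he
  obtain ⟨B, hB, h⟩ := exists_xOut2 M hρ hU he
  exact ⟨B, hB, h (ZMod 2) (by decide)⟩

end Vale.Agent.P216.Ch2
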