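import Vale.Agent.P216.Ch2.H754B.Fl
import Vale.Agent.P216.MV337.ToX
import Vale.Agent.P216.H539.StMoore
import Vale.Agent.P216.N929.Main

/-!
# The stable cohomology of the free loop space of an odd sphere in characteristic `2`

`xOut2_of_cross`: for `n ≥ 3` odd, `M` homeomorphic to the `n`-sphere and every field `k` of
characteristic `2`, the output `B64.XOut M n B k`: in the degrees `0`, `(i + 1) (n - 1)` (`x i`),
`(i + 1) (n - 1) + 1` (`y i`) the stable cohomology is one-dimensional, `0` in the other degrees;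
`x i` and `y i` are born at distance `≤ B`, as are `x i`, `x (i + 1)`.
-/

namespace Vale.Agent.P216.Ch2

open Set BoundedContinuousFunction
open Vale.Agent.P216.B64 Vale.Agent.P216.MV337 Vale.Agent.P216.GM
open Vale.Agent.P216.H901 (SpIntl)
open Vale.Agent.P216.L250 (XE LM fn)

section

variable {M : Type} [MetricSpace M] [CompactSpace M]
  (I : SpIntl (fun t => XE M t) (fun _ => ∅) (fun t => FL M t) (fun _ => ∅) 1)
  {k : Type} [Field k] {n : ℕ} {B : ℝ} (F : FLOut M n B k)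

/-- Births, from the Moore loops to the energy sublevels. -/
theorem birth_gX {q q' : ℕ} (hB : 0 < B)
    (h : ∀ t, 0 < t → F.g q t ≠ 0 → F.g q' (t + B) ≠ 0) (t : ℝ) (ht : 0 ≤ t)
    (hne : gX I F q t ≠ 0) : gX I F q' (t + (B + 3)) ≠ 0 := by
  intro h'
  have h1 := gX_zero I F (by linarith) h'
  rw [show t + (B + 3) - 1 = t + 1 + 1 + B by ring] at h1
  refine h (t + 1 + 1) (by linarith) (fun h2 => hne ?_) h1
  have hXt : XL M t ⊆ XE M (t + 1) := XL_subset (max_le (by linarith) (by linarith))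
  rw [gX_eq I F (by linarith) hXt le_rfl (umf I (by linarith) hXt le_rfl), h2, map_zero]

end

/-- **The stable cohomology of the free loops in characteristic `2`, `n ≥ 3` odd.** -/
def XGoal2 : Prop := ∀ n : ℕ, 3 ≤ n → n % 2 = 1 → ∀ (M : Type) [MetricSpace M] [CompactSpace M]
  (ρ : ℝ), 0 < ρ → LS.UniqSeg M ρ →
  Nonempty (M ≃ₜ Metric.sphere (0 : EuclideanSpace ℝ (Fin (n + 1))) 1) →
  ∃ B : ℝ, 0 < B ∧ ∀ (k : Type) [Field k], (2 : k) = 0 → ∃ X : XOut M n B k,
    (∀ i t, 0 ≤ t → X.g (kk n i * (n - 1)) t ≠ 0 →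
      X.g (kk n i * (n - 1) + 1) (t + B) ≠ 0) ∧
    ∀ i t, 0 ≤ t → X.g (kk n i * (n - 1) + 1) t ≠ 0 →
      X.g (kk n i * (n - 1)) (t + B) ≠ 0

/-- **`XGoal2` from `Cross`.** -/
theorem xGoal2_of_cross (hX : N929.Cross) : XGoal2 := by
  intro n hn hodd M _ _ ρ hρ hU he
  have hne : Nonempty M := by
    obtain ⟨e⟩ := he
    have : (Metric.sphere (0 : EuclideanSpace ℝ (Fin (n + 1))) 1).Nonempty :=
      NormedSpace.sphere_nonempty.2 zero_le_one
    exact ⟨e.symm ⟨_, this.some_mem⟩⟩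
  obtain ⟨x₀⟩ := hne
  obtain ⟨B, hB, hO⟩ := N929.omega_of_homeo hX (by omega) M hρ hU he x₀
  obtain ⟨B₁, hB₁, hF⟩ := H754B.exists_flOut hn hodd hρ hU he hB.le hO
  obtain ⟨I, hI⟩ := MR.stMoore M ρ hρ hU 1 one_pos
  refine ⟨B₁ + 3, by linarith, fun k _ hk => ?_⟩
  obtain ⟨F, hxy, hyx⟩ := hF k hk
  exact ⟨xOut I F hB₁ hI, fun i t ht h => birth_gX I F hB₁ (hxy i) t ht h,
    fun i t ht h => birth_gX I F hB₁ (hyx i) t ht h⟩

end Vale.Agent.P216.Ch2
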