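import Vale.Agent.P216.Ch2.XOut2
import Vale.Agent.P216.H347.Cross

/-!
# `XGoal2`
-/

namespace Vale.Agent.P216.Ch2

/-- **The stable cohomology of the free loops in characteristic `2`, `n ≥ 3` odd.** -/
theorem xGoal2 : XGoal2 := xGoal2_of_cross Crs.cross

end Vale.Agent.P216.Ch2
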